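import Mathlib
import Crest.Agent.X277.N8.Dvr
import Crest.Agent.X277.BD.Map

-- ▼ part X262/Mono15/Prim
section

/-!
# Row 262, SURF, MONO (helper15), part 1: monogenic algebras

* `exists_prim` : a finite reduced algebra over a field of characteristic zero is monogenic;
* `exists_mono` : a finite algebra over a local ring with residue characteristic zero which is a
  principal ideal ring is monogenic;
* `exists_mono_int` : the integral closure of a discrete valuation ring of residue characteristic
  zero in a finite extension is monogenic;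
* `vdm_dvd` : the Vandermonde determinant divides `det (P_b (u_a))`.
-/

set_option autoImplicit false

open Polynomial

namespace Crest.Agent.X262.Mono15

/-- a finite reduced algebra has enough homomorphisms to the algebraic closure -/
theorem finrank_le_card (κ C : Type*) [Field κ] [CharZero κ] [CommRing C] [Algebra κ C]
    [Module.Finite κ C] [IsReduced C] :
    Module.finrank κ C ≤ Nat.card (C →ₐ[κ] AlgebraicClosure κ) := by
  classical
  have hA : IsArtinianRing C := IsArtinianRing.of_finite κ C
  have hF : Fintype (MaximalSpectrum C) := Fintype.ofFinite _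
  let e : C ≃ₗ[κ] ∀ I : MaximalSpectrum C, C ⧸ I.asIdeal :=
    (IsArtinianRing.equivPi C).toLinearEquiv.restrictScalars κ
  rw [e.finrank_eq, Module.finrank_pi_fintype]
  have h1 : ∀ I : MaximalSpectrum C, Module.finrank κ (C ⧸ I.asIdeal) =
      Nat.card ((C ⧸ I.asIdeal) →ₐ[κ] AlgebraicClosure κ) := by
    intro I
    have := I.isMaximal
    let _ : Field (C ⧸ I.asIdeal) := Ideal.Quotient.field _
    rw [Nat.card_eq_fintype_card]
    exact (AlgHom.card κ (C ⧸ I.asIdeal) (AlgebraicClosure κ)).symm
  have h2 : ∀ I : MaximalSpectrum C, Finite ((C ⧸ I.asIdeal) →ₐ[κ] AlgebraicClosure κ) :=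
    fun I => inferInstance
  simp_rw [h1]
  rw [← Nat.card_sigma]
  refine Nat.card_le_card_of_injective
    (fun x => x.2.comp (Ideal.Quotient.mkₐ κ x.1.asIdeal)) ?_
  have hk : ∀ (I : MaximalSpectrum C) (φ : (C ⧸ I.asIdeal) →ₐ[κ] AlgebraicClosure κ) (c : C),
      φ.comp (Ideal.Quotient.mkₐ κ I.asIdeal) c = 0 ↔ c ∈ I.asIdeal := by
    intro I φ c
    have := I.isMaximal
    let _ : Field (C ⧸ I.asIdeal) := Ideal.Quotient.field _
    rw [AlgHom.comp_apply, map_eq_zero_iff φ φ.toRingHom.injective]
    exact Ideal.Quotient.eq_zero_iff_mem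
  rintro ⟨I, φ⟩ ⟨J, ψ⟩ h
  have hIJ : I = J := by
    ext c
    rw [← hk I φ c, ← hk J ψ c]
    exact Iff.of_eq (congrArg (fun χ : C →ₐ[κ] AlgebraicClosure κ => χ c = 0) h)
  subst hIJ
  congr 1
  ext x
  obtain ⟨c, rfl⟩ := Ideal.Quotient.mk_surjective x
  exact congrArg (fun χ : C →ₐ[κ] AlgebraicClosure κ => χ c) h

/-- primitive element theorem for finite reduced algebras -/
theorem exists_prim (κ C : Type*) [Field κ] [CharZero κ] [CommRing C] [Algebra κ C]
    [Module.Finite κ C] [IsReduced C] : ∃ u : C, Algebra.adjoin κ {u} = ⊤ := by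
  classical
  let X := C →ₐ[κ] AlgebraicClosure κ
  let p : {x : X × X // x.1 ≠ x.2} → Subspace κ C :=
    fun x => LinearMap.ker (x.1.1.toLinearMap - x.1.2.toLinearMap)
  have hu : ∃ u : C, ∀ x, u ∉ p x := by
    by_contra hc
    push Not at hc
    obtain ⟨x, hx⟩ := Subspace.exists_eq_top_of_iUnion_eq_univ (p := p)
      (Set.eq_univ_of_forall fun u => Set.mem_iUnion.2 (hc u))
    refine x.2 (AlgHom.ext fun c => ?_)
    have : c ∈ p x := hx ▸ Submodule.mem_top
    exact sub_eq_zero.1 this
  obtain ⟨u, hu⟩ := hu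
  refine ⟨u, ?_⟩
  have hint : IsIntegral κ u := Algebra.IsIntegral.isIntegral u
  have hinj : Function.Injective fun φ : X => φ u := fun φ ψ h => by
    by_contra hne
    exact hu ⟨(φ, ψ), hne⟩ (sub_eq_zero.2 h)
  have h1 : Nat.card X ≤ (minpoly κ u).natDegree := by
    have hF : Fintype X := Fintype.ofFinite _
    have h2 : (Finset.univ.image fun φ : X => φ u) ⊆
        ((minpoly κ u).aroots (AlgebraicClosure κ)).toFinset := by
      intro y hy
      obtain ⟨φ, -, rfl⟩ := Finset.mem_image.1 hy
      rw [Multiset.mem_toFinset, mem_aroots]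
      exact ⟨minpoly.ne_zero hint, by rw [aeval_algHom_apply, minpoly.aeval, map_zero]⟩
    have h3 := Finset.card_le_card h2
    rw [Finset.card_image_of_injective _ hinj, Finset.card_univ, ← Nat.card_eq_fintype_card] at h3
    refine h3.trans ((Multiset.toFinset_card_le _).trans ?_)
    exact (card_roots' _).trans natDegree_map_le
  have h4 : Module.finrank κ (Algebra.adjoin κ {u}) = (minpoly κ u).natDegree :=
    (Algebra.adjoin.powerBasis hint).finrank
  have h5 : (Algebra.adjoin κ {u}).toSubmodule = ⊤ := by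
    refine Submodule.eq_top_of_finrank_eq (le_antisymm (Submodule.finrank_le _) ?_)
    exact (finrank_le_card κ C).trans (h1.trans h4.ge)
  exact Algebra.toSubmodule_eq_top.1 h5

/-- a finite principal ideal algebra over a local ring is monogenic -/
theorem exists_mono (R A : Type*) [CommRing R] [IsLocalRing R]
    [CharZero (IsLocalRing.ResidueField R)] [CommRing A] [Algebra R A] [Module.Finite R A]
    [IsPrincipalIdealRing A] : ∃ u : A, Algebra.adjoin R {u} = ⊤ := by
  classical
  set m := IsLocalRing.maximalIdeal R with hm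
  set I : Ideal A := m.map (algebraMap R A) with hI
  obtain ⟨t, ht⟩ := (IsPrincipalIdealRing.principal I.radical).principal
  have hmem : ∀ a : A, a ∈ I.radical ↔ t ∣ a := fun a => by
    rw [ht]
    exact Ideal.mem_span_singleton
  have hle : m ≤ I.radical.comap (algebraMap R A) :=
    fun r hr => Ideal.le_radical (Ideal.mem_map_of_mem _ hr)
  let κ := IsLocalRing.ResidueField R
  let C := A ⧸ I.radical
  let _ : Algebra κ C := Ideal.Quotient.algebraQuotientOfLEComap hle
  have hst : IsScalarTower R κ C := IsScalarTower.of_algebraMap_eq fun _ => rfl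
  have hfin : Module.Finite κ C := Module.Finite.of_restrictScalars_finite R κ C
  have hred : IsReduced C := (Ideal.isRadical_iff_quotient_reduced _).1 (Ideal.radical_isRadical I)
  obtain ⟨ub, hub⟩ := exists_prim κ C
  obtain ⟨u, rfl⟩ := Ideal.Quotient.mk_surjective ub
  set π := Ideal.Quotient.mk I.radical with hπ
  have hev : ∀ (g : R[X]) (a : A), aeval (π a) (g.map (algebraMap R κ)) = π (aeval a g) := by
    intro g a
    rw [aeval_map_algebraMap]
    exact aeval_algHom_apply (Ideal.Quotient.mkₐ R I.radical) a g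
  have hsurj : Function.Surjective (algebraMap R κ) := IsLocalRing.residue_surjective
  have hint : IsIntegral κ (π u) := Algebra.IsIntegral.isIntegral _
  have hsep : (minpoly κ (π u)).Separable := by
    rw [PerfectField.separable_iff_squarefree]
    exact (minpoly.isRadical κ (π u)).squarefree (minpoly.ne_zero hint)
  obtain ⟨f, hf⟩ := Polynomial.map_surjective _ hsurj (minpoly κ (π u))
  obtain ⟨a, b, hab⟩ := hsep
  obtain ⟨β, hβ⟩ := Ideal.Quotient.mk_surjective (aeval (π u) b)
  have h1 : t ∣ aeval u f := by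
    rw [← hmem, ← Ideal.Quotient.eq_zero_iff_mem, ← hev, hf, minpoly.aeval]
  have h2 : t ∣ aeval u (derivative f) * β - 1 := by
    rw [← hmem, ← Ideal.Quotient.eq_zero_iff_mem, map_sub, map_mul, map_one, ← hev,
      ← derivative_map, hf, hβ]
    have := congrArg (aeval (π u)) hab
    rw [map_add, map_mul, map_mul, minpoly.aeval, map_one] at this
    linear_combination this
  obtain ⟨c, hc⟩ := h1
  obtain ⟨e, he⟩ := h2
  obtain ⟨k, hk⟩ := (f.map (algebraMap R A)).binomExpansion u ((1 - c) * β * t)
  rw [derivative_map, eval_map_algebraMap, eval_map_algebraMap, eval_map_algebraMap] at hk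
  set u' := u + (1 - c) * β * t with hu'
  set j := (1 - c) * e + k * ((1 - c) * β) ^ 2 with hj
  have h3 : aeval u' f = t * (1 + j * t) := by
    rw [hk, hc, hj]
    linear_combination (1 - c) * t * he
  have hB : aeval u' f ∈ Algebra.adjoin R {u'} := aeval_mem_adjoin_singleton R u'
  have h4 : ∀ x : A, ∃ y ∈ Algebra.adjoin R {u'}, t ∣ x - y := by
    intro x
    have hx : π x ∈ Algebra.adjoin κ {π u} := hub ▸ Algebra.mem_top
    rw [Algebra.adjoin_singleton_eq_range_aeval] at hx
    obtain ⟨g, hg⟩ := hx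
    obtain ⟨g, rfl⟩ := Polynomial.map_surjective _ hsurj g
    have hπ' : π u' = π u := by
      rw [hu', map_add, add_eq_left, Ideal.Quotient.eq_zero_iff_mem, hmem]
      exact Dvd.intro_left _ rfl
    refine ⟨aeval u' g, aeval_mem_adjoin_singleton R u', ?_⟩
    rw [← hmem, ← Ideal.Quotient.eq_zero_iff_mem, map_sub, ← hev, hπ']
    exact sub_eq_zero.2 hg.symm
  have h5 : ∀ (n : ℕ) (x : A), ∃ y ∈ Algebra.adjoin R {u'}, t ^ n ∣ x - y := by
    intro n
    induction n with
    | zero => exact fun x => ⟨0, zero_mem _, by simp⟩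
    | succ n ih =>
      intro x
      obtain ⟨y, hy, z, hz⟩ := ih x
      obtain ⟨y', hy', z', hz'⟩ := h4 z
      obtain ⟨w, hw⟩ : t ∣ (1 + j * t) ^ n - 1 := by
        have := sub_dvd_pow_sub_pow (1 + j * t) 1 n
        rw [one_pow, add_sub_cancel_left] at this
        exact (Dvd.intro_left j rfl).trans this
      refine ⟨y + aeval u' f ^ n * y', add_mem hy (mul_mem (pow_mem hB n) hy'),
        z' - w * y', ?_⟩
      rw [h3, mul_pow]
      linear_combination hz + t ^ n * hz' - t ^ n * y' * hw
  obtain ⟨n, hn⟩ : ∃ n : ℕ, t ^ n ∈ I := (hmem t).2 dvd_rfl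
  refine ⟨u', eq_top_iff.2 (Submodule.le_of_le_smul_of_le_jacobson_bot
    (Module.finite_def.1 inferInstance) (IsLocalRing.maximalIdeal_le_jacobson ⊥)
    (?_ : ⊤ ≤ (Algebra.adjoin R {u'}).toSubmodule ⊔ m • ⊤))⟩
  intro x _
  obtain ⟨y, hy, z, hz⟩ := h5 n x
  rw [Ideal.smul_top_eq_map]
  refine Submodule.mem_sup.2 ⟨y, hy, x - y, ?_, by ring⟩
  rw [hz]
  exact Ideal.mul_mem_right _ _ hn

/-- the integral closure of a discrete valuation ring in a finite extension is monogenic -/
theorem exists_mono_int (R E F : Type*) [CommRing R] [IsDomain R] [IsDiscreteValuationRing R]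
    [CharZero (IsLocalRing.ResidueField R)] [Field E] [Algebra R E] [IsFractionRing R E]
    [Field F] [Algebra E F] [Algebra R F] [IsScalarTower R E F] [FiniteDimensional E F]
    [Algebra.IsSeparable E F] :
    ∃ u : F, IsIntegral R u ∧ ∀ a : F, IsIntegral R a → ∃ P : R[X], aeval u P = a := by
  let A := integralClosure R F
  have h1 : IsDedekindDomain A := IsIntegralClosure.isDedekindDomain R E F A
  have h2 : Module.Finite R A := IsIntegralClosure.finite R E F A
  have hinj : Function.Injective (algebraMap R F) := by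
    rw [IsScalarTower.algebraMap_eq R E F]
    exact (algebraMap E F).injective.comp (IsFractionRing.injective R E)
  have h4 : FaithfulSMul R A := (faithfulSMul_iff_algebraMap_injective R A).2 fun x y h =>
    hinj (congrArg Subtype.val h)
  have h3 : IsPrincipalIdealRing A := by
    refine IsPrincipalIdealRing.of_finite_maximals
      ((IsDedekindDomain.primesOver_finite (IsLocalRing.maximalIdeal R) A).subset fun P hP => ?_)
    have hP' : P.IsMaximal := hP
    exact ⟨hP'.isPrime, ⟨(IsLocalRing.eq_maximalIdeal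
      (Ideal.isMaximal_comap_of_isIntegral_of_isMaximal P)).symm⟩⟩
  obtain ⟨u, hu⟩ := exists_mono R A
  refine ⟨u, u.2, fun a ha => ?_⟩
  have h5 : (⟨a, ha⟩ : A) ∈ Algebra.adjoin R {u} := hu ▸ Algebra.mem_top
  rw [Algebra.adjoin_singleton_eq_range_aeval] at h5
  obtain ⟨P, hP⟩ := h5
  refine ⟨P, ?_⟩
  exact (aeval_algHom_apply A.val u P).trans (congrArg A.val hP)

/-- the Vandermonde determinant divides the determinant of values of polynomials -/
theorem vdm_dvd {W : Type*} [CommRing W] {r : ℕ} (u : Fin r → W) (P : Fin r → W[X]) :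
    (Matrix.vandermonde u).det ∣ (Matrix.of fun a b => (P b).eval (u a)).det := by
  nontriviality W
  set M : W[X] := ∏ a, (X - C (u a)) with hM
  have hm : M.Monic := monic_prod_of_monic _ _ fun a _ => monic_X_sub_C _
  have hd : M.natDegree = r := by
    rw [hM, natDegree_prod_of_monic _ _ fun a _ => monic_X_sub_C _]
    simp
  have h1 : (Matrix.of fun a b => (P b).eval (u a)) =
      Matrix.vandermonde u * Matrix.of fun (c b : Fin r) => (P b %ₘ M).coeff c := by
    ext a b
    have h2 : M.eval (u a) = 0 := by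
      rw [hM, eval_prod]
      exact Finset.prod_eq_zero (Finset.mem_univ a) (by simp)
    have h3 : (P b).eval (u a) = (P b %ₘ M).eval (u a) := by
      conv_lhs => rw [← modByMonic_add_div (P b) M]
      rw [eval_add, eval_mul, h2, zero_mul, add_zero]
    have h4 : (P b %ₘ M).degree < r := by
      have := degree_modByMonic_lt (P b) hm
      rwa [degree_eq_natDegree hm.ne_zero, hd] at this
    rw [Matrix.of_apply, h3, Matrix.mul_apply, eval_eq_sum_degreeLTEquiv
      ((mem_degreeLT).2 h4)]
    refine Finset.sum_congr rfl fun c _ => ?_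
    rw [Matrix.vandermonde_apply, Matrix.of_apply, mul_comm]
    rfl
  rw [h1, Matrix.det_mul]
  exact Dvd.intro _ rfl

end Crest.Agent.X262.Mono15
end

-- ▼ part X262/Mono15/Val
section

/-!
# Row 262, SURF, MONO (helper15), part 2: minors are Vandermonde determinants

`V` a valuation ring of `E`, `F / E` finite, `Mon V u` : the integral closure of `V` in `F` is
`V[u]` and every element of `F` is a quotient of two coprime elements of `V[u]`.

* `exists_mon` : existence for discrete valuation rings;
* `Mon.det_le`, `Mon.exists_det` : the largest minor of `(p_a s_b)` is `g ^ r` Vandermonde;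
* `Mon.sub_le`, `Mon.exists_sub` : the largest `p_i s_b - p_j s_b` is `g (p_i u - p_j u)`;
* `Mon.deriv_eq` : `p_i f'(u) = ∏_{j ≠ i} (p_i u - p_j u)`.
-/

set_option autoImplicit false

open Polynomial

namespace Crest.Agent.X262.Mono15

variable {E F Ω : Type*} [Field E] [Field F] [Field Ω] [Algebra E F]

/-- the integral closure of `V` in `F` is `V[u]` -/
structure Mon (V : ValuationSubring E) (u : F) : Prop where
  int : IsIntegral V u
  gen : ∀ a : F, IsIntegral V a → ∃ P : V[X], aeval u P = a
  frac : ∀ a : F, ∃ P Q α β : V[X], aeval u P = a * aeval u Q ∧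
    aeval u α * aeval u P + aeval u β * aeval u Q = 1

theorem exists_mon (V : ValuationSubring E) [IsDiscreteValuationRing V]
    [CharZero (IsLocalRing.ResidueField V)] [FiniteDimensional E F] [Algebra.IsSeparable E F] :
    ∃ u : F, Mon V u := by
  obtain ⟨u, h1, h2⟩ := exists_mono_int V E F
  refine ⟨u, h1, h2, fun a => ?_⟩
  let A := integralClosure V F
  have h3 : IsDedekindDomain A := IsIntegralClosure.isDedekindDomain V E F A
  have h4 : Module.Finite V A := IsIntegralClosure.finite V E F A
  have hinj : Function.Injective (algebraMap V F) := by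
    rw [IsScalarTower.algebraMap_eq V E F]
    exact (algebraMap E F).injective.comp (IsFractionRing.injective V E)
  have h5 : FaithfulSMul V A := (faithfulSMul_iff_algebraMap_injective V A).2 fun x y h =>
    hinj (congrArg Subtype.val h)
  have h6 : IsPrincipalIdealRing A := by
    refine IsPrincipalIdealRing.of_finite_maximals
      ((IsDedekindDomain.primesOver_finite (IsLocalRing.maximalIdeal V) A).subset fun P hP => ?_)
    have hP' : P.IsMaximal := hP
    exact ⟨hP'.isPrime, ⟨(IsLocalRing.eq_maximalIdeal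
      (Ideal.isMaximal_comap_of_isIntegral_of_isMaximal P)).symm⟩⟩
  have h7 : IsFractionRing A F := IsIntegralClosure.isFractionRing_of_finite_extension V E F A
  obtain ⟨x, y, h8, h9⟩ := IsFractionRing.exists_reduced_fraction A a
  obtain ⟨c, d, h10⟩ := h8.isCoprime
  obtain ⟨P, hP⟩ := h2 x x.2
  obtain ⟨Q, hQ⟩ := h2 (y : A) (y : A).2
  obtain ⟨α, hα⟩ := h2 c c.2
  obtain ⟨β, hβ⟩ := h2 d d.2
  refine ⟨P, Q, α, β, ?_, ?_⟩
  · rw [hP, hQ, ← h9]
    exact (IsLocalization.mk'_spec F x y).symm
  · rw [hP, hQ, hα, hβ]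
    exact congrArg Subtype.val h10

theorem det_mul_sum {R ι : Type*} [CommRing R] [Fintype ι] {r : ℕ} (N : Matrix (Fin r) ι R)
    (C : Matrix ι (Fin r) R) :
    (N * C).det = ∑ c : Fin r → ι, (∏ b, C (c b) b) * (Matrix.of fun a b => N a (c b)).det := by
  classical
  simp only [Matrix.det_apply', Matrix.mul_apply, Finset.prod_univ_sum, Finset.mul_sum,
    Fintype.piFinset_univ, Matrix.of_apply]
  rw [Finset.sum_comm]
  refine Finset.sum_congr rfl fun c _ => Finset.sum_congr rfl fun σ _ => ?_
  rw [Finset.prod_mul_distrib]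
  ring

variable {Γ : Type*} [LinearOrderedCommGroupWithZero Γ] {w : Valuation Ω Γ}
  {V : ValuationSubring E} {u : F} {q : E →+* Ω}

theorem v_le_of_int (hw : ∀ c : V, w (q c) ≤ 1) {p : F →+* Ω}
    (hp : ∀ e, p (algebraMap E F e) = q e) {a : F} (ha : IsIntegral V a) : w (p a) ≤ 1 := by
  let ψ : V →+* w.integer := (q.comp V.subtype).codRestrict w.integer hw
  have h1 : IsIntegral w.integer (p a) :=
    ha.map_of_comp_eq ψ p (RingHom.ext fun c => (hp c).symm)
  exact (Valuation.integer.integers w).mem_of_integral h1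

theorem map_aeval' {p : F →+* Ω} (hp : ∀ e, p (algebraMap E F e) = q e) (P : V[X]) (a : F) :
    p (aeval a P) = (P.map (q.comp V.subtype)).eval (p a) := by
  rw [eval_map, aeval_def, hom_eval₂]
  congr 1
  exact RingHom.ext fun c => hp c

theorem v_aeval_le (hw : ∀ c : V, w (q c) ≤ 1) {p : F →+* Ω}
    (hp : ∀ e, p (algebraMap E F e) = q e) {a : F} (ha : w (p a) ≤ 1) (P : V[X]) :
    w (p (aeval a P)) ≤ 1 := by
  rw [map_aeval' hp, eval_eq_sum_range]
  refine w.map_sum_le fun i _ => ?_
  rw [map_mul, map_pow, coeff_map]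
  exact mul_le_one' (hw _) (pow_le_one' ha _)

namespace Mon

variable (hu : Mon V u)

include hu

theorem eq_of_eq {p p' : F →+* Ω} (hp : ∀ e, p (algebraMap E F e) = q e)
    (hp' : ∀ e, p' (algebraMap E F e) = q e) (h : p u = p' u) : p = p' := by
  have h1 : ∀ P : V[X], p (aeval u P) = p' (aeval u P) := fun P => by
    rw [map_aeval' hp, map_aeval' hp', h]
  ext a
  obtain ⟨P, Q, α, β, h2, h3⟩ := hu.frac a
  have h4 : aeval u Q ≠ 0 := fun h0 => by
    rw [h0, mul_zero] at h2
    rw [h0, h2, mul_zero, mul_zero, add_zero] at h3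
    exact zero_ne_one h3
  have h5 := h1 P
  rw [h2, map_mul, map_mul, h1 Q] at h5
  exact mul_right_cancel₀ ((map_ne_zero p').2 h4) h5

/-- the valuation rings over `V` are localisations of `V[u]` -/
theorem exists_frac (hw : ∀ c : V, w (q c) ≤ 1) {p : F →+* Ω}
    (hp : ∀ e, p (algebraMap E F e) = q e) {a : F} (ha : w (p a) ≤ 1) :
    ∃ P Q : V[X], aeval u P = a * aeval u Q ∧ w (p (aeval u Q)) = 1 := by
  obtain ⟨P, Q, α, β, h2, h3⟩ := hu.frac a
  have h1 := v_aeval_le hw hp (v_le_of_int hw hp hu.int)
  refine ⟨P, Q, h2, le_antisymm (h1 Q) (not_lt.1 fun h4 => ?_)⟩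
  have h5 : w (p (aeval u α * aeval u P + aeval u β * aeval u Q)) < 1 := by
    rw [h2, ← mul_assoc, ← add_mul, map_mul, map_mul]
    refine lt_of_le_of_lt (mul_le_of_le_one_left' ?_) h4
    rw [map_add, map_mul]
    refine w.map_add_le ?_ (h1 β)
    rw [map_mul]
    exact mul_le_one' (h1 α) ha
  rw [h3, map_one, map_one] at h5
  exact lt_irrefl _ h5

variable (hw : ∀ c : V, w (q c) ≤ 1) {r : ℕ} {p : Fin r → F →+* Ω}
  (hp : ∀ a e, p a (algebraMap E F e) = q e) {g : E}

include hw hp

/-- the minors are bounded by the Vandermonde determinant -/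
theorem det_le (hg : g ≠ 0) {s : Fin r → F} (hs : ∀ b, IsIntegral V (s b / algebraMap E F g)) :
    w (Matrix.of fun a b => p a (s b)).det ≤
      w (q g) ^ r * w (Matrix.vandermonde fun a => p a u).det := by
  choose P hP using fun b => hu.gen _ (hs b)
  let ψ : V →+* w.integer := (q.comp V.subtype).codRestrict w.integer hw
  let U : Fin r → w.integer := fun a => ⟨p a u, v_le_of_int hw (hp a) hu.int⟩
  obtain ⟨c, hc⟩ := vdm_dvd U fun b => (P b).map ψ
  have h1 := congrArg w.integer.subtype hc
  rw [map_mul, RingHom.map_det, RingHom.map_det] at h1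
  have h2 : (Matrix.of fun a b => p a (s b)) = q g • w.integer.subtype.mapMatrix
      (Matrix.of fun a b => ((P b).map ψ).eval (U a)) := by
    ext a b
    have h3 : s b = algebraMap E F g * aeval u (P b) := by
      rw [hP, mul_div_cancel₀ _ ((_root_.map_ne_zero _).2 hg)]
    rw [Matrix.of_apply, h3, map_mul, hp, map_aeval' (hp a), Matrix.smul_apply,
      RingHom.mapMatrix_apply, Matrix.map_apply, Matrix.of_apply, smul_eq_mul, eval_map, eval_map,
      hom_eval₂]
    rfl
  have h3 : w.integer.subtype.mapMatrix (Matrix.vandermonde U) =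
      Matrix.vandermonde fun a => p a u := by
    ext a b
    simp [U]
  rw [h2, Matrix.det_smul, Fintype.card_fin, h1, h3, map_mul, map_mul, map_pow]
  exact mul_le_mul_right (mul_le_of_le_one_right' c.2) _

/-- some minor is as large as the Vandermonde determinant -/
theorem exists_det {ι : Type*} [Finite ι] [Nonempty ι] {s : ι → F}
    (hs : ∀ a : F, IsIntegral V a → a * algebraMap E F g ∈ Submodule.span V (Set.range s)) :
    ∃ c : Fin r → ι, w (q g) ^ r * w (Matrix.vandermonde fun a => p a u).det ≤
      w (Matrix.of fun a b => p a (s (c b))).det := by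
  classical
  have := Fintype.ofFinite ι
  choose C hC using fun b : Fin r =>
    (Submodule.mem_span_range_iff_exists_fun V).1 (hs _ (hu.int.pow b))
  obtain ⟨c, hc⟩ := Finite.exists_max fun c : Fin r → ι =>
    w (Matrix.of fun a b => p a (s (c b))).det
  refine ⟨c, ?_⟩
  have h1 : q g • (Matrix.vandermonde fun a => p a u) =
      (Matrix.of fun a i => p a (s i)) * Matrix.of fun i b => q (C b i) := by
    ext a b
    have h2 := congrArg (p a) (hC b)
    rw [map_mul, hp, map_pow, map_sum] at h2
    rw [Matrix.smul_apply, Matrix.vandermonde_apply, smul_eq_mul, mul_comm, ← h2, Matrix.mul_apply]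
    refine Finset.sum_congr rfl fun i _ => ?_
    rw [Algebra.smul_def, map_mul, mul_comm, Matrix.of_apply, Matrix.of_apply, ← hp a]
    rfl
  have h2 := congrArg Matrix.det h1
  rw [Matrix.det_smul, Fintype.card_fin, det_mul_sum] at h2
  rw [← map_pow, ← map_mul, h2]
  refine w.map_sum_le fun c' _ => ?_
  rw [map_mul, map_prod]
  exact (mul_le_of_le_one_left' (Finset.prod_le_one' fun b _ => hw _)).trans (hc c')

omit hp

variable {p₁ p₂ : F →+* Ω} (h₁ : ∀ e, p₁ (algebraMap E F e) = q e)
  (h₂ : ∀ e, p₂ (algebraMap E F e) = q e)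

include h₁ h₂

theorem sub_le (hg : g ≠ 0) {s : F} (hs : IsIntegral V (s / algebraMap E F g)) :
    w (p₁ s - p₂ s) ≤ w (q g) * w (p₁ u - p₂ u) := by
  obtain ⟨P, hP⟩ := hu.gen _ hs
  let ψ : V →+* w.integer := (q.comp V.subtype).codRestrict w.integer hw
  obtain ⟨c, hc⟩ := sub_dvd_eval_sub (⟨p₁ u, v_le_of_int hw h₁ hu.int⟩ : w.integer)
    ⟨p₂ u, v_le_of_int hw h₂ hu.int⟩ (P.map ψ)
  have h1 := congrArg w.integer.subtype hc
  rw [map_sub, eval_map, eval_map, hom_eval₂, hom_eval₂] at h1
  have h3 : s = algebraMap E F g * aeval u P := by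
    rw [hP, mul_div_cancel₀ _ ((_root_.map_ne_zero _).2 hg)]
  rw [h3, map_mul, map_mul, h₁, h₂, ← mul_sub, map_mul, map_aeval' h₁, map_aeval' h₂, eval_map,
    eval_map]
  refine mul_le_mul_right ((congrArg w h1).trans_le ?_) _
  rw [map_mul, map_mul]
  exact mul_le_of_le_one_right' c.2

theorem exists_sub {ι : Type*} [Finite ι] [Nonempty ι] {s : ι → F}
    (hs : ∀ a : F, IsIntegral V a → a * algebraMap E F g ∈ Submodule.span V (Set.range s)) :
    ∃ b : ι, w (q g) * w (p₁ u - p₂ u) ≤ w (p₁ (s b) - p₂ (s b)) := by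
  have := Fintype.ofFinite ι
  obtain ⟨C, hC⟩ := (Submodule.mem_span_range_iff_exists_fun V).1 (hs _ hu.int)
  obtain ⟨b, hb⟩ := Finite.exists_max fun b : ι => w (p₁ (s b) - p₂ (s b))
  refine ⟨b, ?_⟩
  have h1 : ∀ p' : F →+* Ω, (∀ e, p' (algebraMap E F e) = q e) →
      q g * p' u = ∑ i, q (C i) * p' (s i) := fun p' hp' => by
    have h2 := congrArg p' hC
    rw [map_mul, hp', map_sum] at h2
    rw [mul_comm, ← h2]
    refine Finset.sum_congr rfl fun i _ => ?_
    rw [Algebra.smul_def, map_mul, ← hp']
    rfl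
  rw [← map_mul, mul_sub, h1 p₁ h₁, h1 p₂ h₂, ← Finset.sum_sub_distrib]
  refine w.map_sum_le fun i _ => ?_
  rw [← mul_sub, map_mul]
  exact (mul_le_of_le_one_left' (hw _)).trans (hb i)

end Mon

theorem Mon.natDegree_le [FiniteDimensional E F] (hu : Mon V u) :
    (minpoly V u).natDegree ≤ Module.finrank E F := by
  rw [← (minpoly.monic hu.int).natDegree_map (algebraMap V E),
    ← minpoly.isIntegrallyClosed_eq_field_fractions' E hu.int]
  exact minpoly.natDegree_le u


/-- the Vandermonde determinant of one more element -/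
theorem vdm_succ {R : Type*} [CommRing R] {r : ℕ} (x : Fin (r + 1) → R) :
    (Matrix.vandermonde x).det = (Matrix.vandermonde fun a : Fin r => x a.castSucc).det *
      ∏ a : Fin r, (x (Fin.last r) - x a.castSucc) := by
  rw [Matrix.det_vandermonde, Matrix.det_vandermonde, Fin.prod_univ_castSucc,
    ← Finset.prod_mul_distrib]
  have h1 : Finset.Ioi (Fin.last r) = ∅ := by
    ext j
    simp [Fin.le_last]
  rw [h1, Finset.prod_empty, mul_one]
  refine Finset.prod_congr rfl fun a _ => ?_
  have h2 : Finset.Ioi a.castSucc = insert (Fin.last r) ((Finset.Ioi a).map Fin.castSuccEmb) := by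
    ext j
    refine Fin.lastCases ?_ (fun j => ?_) j
    · simp [Fin.castSucc_lt_last]
    · simp [Fin.le_last]
  rw [h2, Finset.prod_insert (by simp), Finset.prod_map, mul_comm]
  rfl

end Crest.Agent.X262.Mono15
end

-- ▼ part X262/Mono15/Dif0
section

/-!
# Row 262, SURF, MONO (helper15), part 3: the different of a tame extension

`O` a valuation ring of `F` over `V`, `Mon V u`, `f` the minimal polynomial of `u`.

* `Mon.exists_sep`  : a polynomial `g` with `g(u)` in the maximal ideal and `g'(u)` a unit;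
* `Mon.exists_unif` : the same with `g(u)` a uniformiser;
* `Mon.le_deriv`    : `|x| ≤ |π| |f'(u)|`;
* `Mon.deriv_le`    : `|f'(u)| ≤ |c|` if a derivation has `δ V ⊆ c O` and `δ (g u) = 1`.
-/

set_option autoImplicit false

open Polynomial IsLocalRing

namespace Crest.Agent.X262.Mono15

variable {E F : Type*} [Field E] [Field F] [Algebra E F] {O : ValuationSubring F}
  {V : ValuationSubring E} {u : F}

theorem v_comap_le (hO : O.comap (algebraMap E F) = V) {x y : E} :
    O.valuation (algebraMap E F x) ≤ O.valuation (algebraMap E F y) ↔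
      V.valuation x ≤ V.valuation y := by
  subst hO
  by_cases hy : y = 0
  · simp [hy]
  have h1 : algebraMap E F y ≠ 0 := (_root_.map_ne_zero _).2 hy
  refine (div_le_one₀ (zero_lt_iff.2 ((Valuation.ne_zero_iff _).2 h1))).symm.trans
    (Iff.trans ?_ (div_le_one₀ (zero_lt_iff.2 ((Valuation.ne_zero_iff _).2 hy))))
  rw [← map_div₀, ← map_div₀, ← map_div₀, ValuationSubring.valuation_le_one_iff,
    ValuationSubring.valuation_le_one_iff]
  rfl

theorem v_comap_lt (hO : O.comap (algebraMap E F) = V) {x : E} :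
    O.valuation (algebraMap E F x) < 1 ↔ V.valuation x < 1 := by
  rw [← not_le, ← not_le, ← map_one V.valuation, ← v_comap_le hO, map_one, map_one]

theorem v_comap_eq (hO : O.comap (algebraMap E F) = V) {x : E} :
    O.valuation (algebraMap E F x) = 1 ↔ V.valuation x = 1 := by
  rw [le_antisymm_iff, le_antisymm_iff, ← map_one V.valuation, ← v_comap_le hO, ← v_comap_le hO,
    map_one, map_one]

theorem v_coe_le (hO : O.comap (algebraMap E F) = V) (c : V) :
    O.valuation (algebraMap E F c) ≤ 1 :=
  (O.valuation_le_one_iff _).2 (show (c : E) ∈ O.comap (algebraMap E F) from hO ▸ c.2)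

namespace Mon

variable (hu : Mon V u) (hO : O.comap (algebraMap E F) = V)

include hu hO

theorem v_le (P : V[X]) : O.valuation (aeval u P) ≤ 1 :=
  v_aeval_le (p := RingHom.id F) (v_coe_le hO) (fun _ => rfl)
    (v_le_of_int (p := RingHom.id F) (v_coe_le hO) (fun _ => rfl) hu.int) P

theorem exists_frac' {a : F} (ha : O.valuation a ≤ 1) :
    ∃ P Q : V[X], aeval u P = a * aeval u Q ∧ O.valuation (aeval u Q) = 1 :=
  hu.exists_frac (p := RingHom.id F) (v_coe_le hO) (fun _ => rfl) ha

theorem v_le_of_coeff {x : E} {P : V[X]} (h : ∀ i, V.valuation (P.coeff i) ≤ V.valuation x) :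
    O.valuation (aeval u P) ≤ O.valuation (algebraMap E F x) := by
  rw [aeval_eq_sum_range]
  refine O.valuation.map_sum_le fun i _ => ?_
  have h1 := hu.v_le hO (X ^ i)
  rw [map_pow, aeval_X] at h1
  rw [Algebra.smul_def, map_mul]
  exact (mul_le_of_le_one_right' h1).trans ((v_comap_le hO).2 (h i))

theorem exists_sep [CharZero (ResidueField V)] : ∃ g : V[X], O.valuation (aeval u g) < 1 ∧
    O.valuation (aeval u (derivative g)) = 1 ∧ ∀ P : V[X], O.valuation (aeval u P) < 1 →
      ∃ h : V[X], ∀ i, V.valuation ((P - g * h).coeff i) < 1 := by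
  have hm : ∀ P : V[X], aeval u P ∈ O := fun P => (O.valuation_le_one_iff _).1 (hu.v_le hO P)
  let ρ : V[X] →+* ResidueField O :=
    (residue O).comp ((aeval u : V[X] →ₐ[V] F).toRingHom.codRestrict O hm)
  have hρ : ∀ P, ρ P = 0 ↔ O.valuation (aeval u P) < 1 := fun P =>
    (residue_eq_zero_iff _).trans (O.valuation_lt_one_iff _)
  have hr : ∀ c : V, residue V c = 0 ↔ V.valuation c < 1 := fun c =>
    (residue_eq_zero_iff _).trans (V.valuation_lt_one_iff _)
  let _ : Algebra (ResidueField V) (ResidueField O) :=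
    (Ideal.Quotient.lift (maximalIdeal V) (ρ.comp C) fun c hc => (hρ _).2 (by
      rw [aeval_C]
      exact (v_comap_lt hO).2 ((V.valuation_lt_one_iff _).1 hc))).toAlgebra
  have hev : ∀ P : V[X], aeval (ρ X) (P.map (residue V)) = ρ P := fun P => by
    rw [aeval_def, eval₂_map]
    have h1 : eval₂RingHom (ρ.comp C) (ρ X) = ρ :=
      ringHom_ext (fun c => eval₂_C _ _) (eval₂_X _ _)
    exact congrArg (fun φ => φ P) h1
  have hint : IsIntegral (ResidueField V) (ρ X) :=
    ⟨_, (minpoly.monic hu.int).map (residue V), (hev _).trans ((hρ _).2 (by simp))⟩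
  obtain ⟨g, hg⟩ := Polynomial.map_surjective _ (residue_surjective (R := V))
    (minpoly (ResidueField V) (ρ X))
  refine ⟨g, (hρ _).1 (by rw [← hev, hg, minpoly.aeval]), ?_, fun P hP => ?_⟩
  · refine le_antisymm (hu.v_le hO _) (not_lt.1 fun h => ?_)
    rw [← hρ, ← hev, ← derivative_map, hg] at h
    exact (minpoly.irreducible hint).separable.aeval_derivative_ne_zero (minpoly.aeval _ _) h
  · rw [← hρ, ← hev] at hP
    obtain ⟨h, hh⟩ := minpoly.dvd _ _ hP
    obtain ⟨h, rfl⟩ := Polynomial.map_surjective _ (residue_surjective (R := V)) h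
    refine ⟨h, fun i => (hr _).1 ?_⟩
    rw [← coeff_map, Polynomial.map_sub, Polynomial.map_mul, hg, hh, sub_self, coeff_zero]

theorem exists_unif [CharZero (ResidueField V)] {x : E} (hx : V.valuation x < 1)
    (hx' : ∀ y, V.valuation y < 1 → V.valuation y ≤ V.valuation x) {t : F}
    (ht : O.valuation t < 1) : ∃ g : V[X], O.valuation (aeval u g) < 1 ∧
      O.valuation t ≤ O.valuation (aeval u g) ∧ O.valuation (aeval u (derivative g)) = 1 := by
  obtain ⟨g, h1, h2, h3⟩ := hu.exists_sep hO
  rcases le_or_gt (O.valuation t) (O.valuation (aeval u g)) with h | h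
  · exact ⟨g, h1, h, h2⟩
  obtain ⟨P, Q, h4, h5⟩ := hu.exists_frac' hO ht.le
  have h6 : O.valuation (aeval u P) = O.valuation t := by rw [h4, map_mul, h5, mul_one]
  obtain ⟨c, h7⟩ := h3 P (h6 ▸ ht)
  have h8 := hu.v_le_of_coeff hO fun i => hx' _ (h7 i)
  have h9 : O.valuation (aeval u (g * c)) < O.valuation (aeval u P) := by
    rw [map_mul, map_mul, h6]
    exact lt_of_le_of_lt (mul_le_of_le_one_right' (hu.v_le hO c)) h
  rw [map_sub, Valuation.map_sub_eq_of_lt_left _ h9, h6] at h8
  have h10 : O.valuation (aeval u (g + C ⟨x, (V.valuation_le_one_iff x).1 hx.le⟩)) =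
      O.valuation (algebraMap E F x) := by
    rw [map_add, aeval_C]
    exact Valuation.map_add_eq_of_lt_right _ (h.trans_le h8)
  exact ⟨_, h10 ▸ (v_comap_lt hO).2 hx, h10 ▸ h8, by simpa using h2⟩

/-- the different of a tame extension, lower bound -/
theorem le_deriv {x : V} {g : V[X]} {e : ℕ} (h1 : O.valuation (aeval u g) < 1)
    (h0 : aeval u g ≠ 0) (h2 : O.valuation (aeval u (derivative g)) = 1)
    (he : O.valuation ((e + 1 : ℕ) : F) = 1)
    (hx : O.valuation (algebraMap E F x) = O.valuation (aeval u g) ^ (e + 1)) :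
    O.valuation (aeval u g) ^ e ≤ O.valuation (aeval u (derivative (minpoly V u))) := by
  have hp : 0 < O.valuation (aeval u g) := zero_lt_iff.2 ((Valuation.ne_zero_iff _).2 h0)
  have h3 : O.valuation (algebraMap E F x / aeval u g ^ (e + 1)) = 1 := by
    rw [map_div₀, map_pow, hx, div_self (pow_pos hp _).ne']
  obtain ⟨P, Q, h4, h5⟩ := hu.exists_frac' hO h3.le
  have h6 : O.valuation (aeval u P) = 1 := by rw [h4, map_mul, h3, h5, mul_one]
  have h7 : aeval u (g ^ (e + 1) * P - C x * Q) = 0 := by
    rw [map_sub, map_mul, map_mul, map_pow, h4, aeval_C, ← mul_assoc,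
      mul_div_cancel₀ _ (pow_ne_zero _ h0)]
    exact sub_self _
  obtain ⟨G, hG⟩ := minpoly.isIntegrallyClosed_dvd hu.int h7
  have h8 := congrArg (fun R => aeval u (derivative R)) hG
  simp only [derivative_mul, derivative_C, derivative_pow, map_add, map_sub,
    map_mul, map_pow, minpoly.aeval, zero_mul, add_zero, zero_add, aeval_C, Nat.add_sub_cancel,
    map_natCast] at h8
  have h9 : O.valuation (((e + 1 : ℕ) : F) * aeval u g ^ e * aeval u (derivative g) * aeval u P) =
      O.valuation (aeval u g) ^ e := by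
    rw [map_mul, map_mul, map_mul, he, h2, h6, map_pow, one_mul, mul_one, mul_one]
  have h10 : O.valuation (aeval u g) ^ (e + 1) < O.valuation (aeval u g) ^ e := by
    rw [pow_succ]
    exact mul_lt_of_lt_one_right (pow_pos hp _) h1
  have h11 : O.valuation (aeval u g ^ (e + 1) * aeval u (derivative P) -
      algebraMap V F x * aeval u (derivative Q)) < O.valuation (aeval u g) ^ e := by
    refine lt_of_le_of_lt (O.valuation.map_sub_le ?_ ?_) h10
    · rw [map_mul, map_pow]
      exact mul_le_of_le_one_right' (hu.v_le hO _)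
    · rw [map_mul]
      exact (mul_le_of_le_one_right' (hu.v_le hO _)).trans hx.le
  rw [← h9] at h11
  rw [← h9, ← Valuation.map_add_eq_of_lt_left _ h11, ← add_sub_assoc, h8, map_mul]
  exact mul_le_of_le_one_right' (hu.v_le hO _)

variable {k : Type*} [Field k] [Algebra k F] (δ : Derivation k F F) {c : F}
  (hδ : ∀ a : V, O.valuation (δ (algebraMap E F a)) ≤ O.valuation c)

include hδ

theorem der_aeval (P : V[X]) :
    O.valuation (δ (aeval u P) - aeval u (derivative P) * δ u) ≤ O.valuation c := by
  induction P using Polynomial.induction_on' with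
  | add P Q hP hQ =>
    rw [map_add, map_add, map_add, map_add, add_mul, add_sub_add_comm]
    exact O.valuation.map_add_le hP hQ
  | monomial n a =>
    have h1 := hu.v_le hO (X ^ n)
    rw [map_pow, aeval_X] at h1
    have h2 : δ (aeval u (monomial n a)) - aeval u (derivative (monomial n a)) * δ u =
        u ^ n * δ (algebraMap E F a) := by
      rw [derivative_monomial, aeval_monomial, aeval_monomial, Derivation.leibniz,
        Derivation.leibniz_pow, map_mul, map_natCast]
      simp only [smul_eq_mul, nsmul_eq_mul]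
      change _ + u ^ n * δ (algebraMap E F a) - _ = _
      ring
    rw [h2, map_mul]
    exact (mul_le_of_le_one_left' h1).trans (hδ a)

/-- the different of a tame extension, upper bound -/
theorem deriv_le {g : V[X]} (hg : δ (aeval u g) = 1) :
    O.valuation (aeval u (derivative (minpoly V u))) ≤ O.valuation c := by
  have h1 := hu.der_aeval hO δ hδ g
  have h2 := hu.der_aeval hO δ hδ (minpoly V u)
  rw [minpoly.aeval, map_zero, zero_sub, Valuation.map_neg] at h2
  rw [hg] at h1
  have h3 : aeval u (derivative (minpoly V u)) =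
      aeval u (derivative (minpoly V u)) * (1 - aeval u (derivative g) * δ u) +
        aeval u (derivative g) * (aeval u (derivative (minpoly V u)) * δ u) := by ring
  rw [h3]
  refine O.valuation.map_add_le ?_ ?_
  · rw [map_mul]
    exact (mul_le_of_le_one_left' (hu.v_le hO _)).trans h1
  · rw [map_mul]
    exact (mul_le_of_le_one_left' (hu.v_le hO _)).trans h2

end Mon

end Crest.Agent.X262.Mono15
end

-- ▼ part X262/Mono15/Dif
section

/-!
# Row 262, SURF, MONO (helper15), part 4: Hurwitz formula along a divisor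

* `hurwitz` : `|jac z| |f'(u)| = |jac y|` for extremal Jacobians upstairs and downstairs.
-/

set_option autoImplicit false

open Polynomial IsLocalRing Module
open scoped KaehlerDifferential

noncomputable section

namespace Crest.Agent.X262.Mono15

open Crest.Agent.R276.FKDefs_779 Crest.Agent.R276.DivVal_858 Crest.Agent.X277.Per
  Crest.Agent.X277.Jet Crest.Agent.X277.Cns Crest.Agent.X277.N8

variable {k E F : Type} [Field k] [Field E] [Field F] [Algebra k E] [Algebra k F] [Algebra E F]
  [IsScalarTower k E F] {O : ValuationSubring F} {V : ValuationSubring E} {u : F} {n : ℕ}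

theorem charZero_res [CharZero k] (hk : KV k V) : CharZero (ResidueField V) :=
  charZero_of_injective_ringHom
    ((residue V).comp ((algebraMap k E).codRestrict V hk)).injective

theorem der_expand (Z : Fr k E (Fin n)) (δ : Derivation k F F) (c : E) :
    δ (algebraMap E F c) = ∑ i, algebraMap E F (Z.D i c) * δ (algebraMap E F (Z.y i)) := by
  have h := congrArg (δ.compAlgebraMap E).liftKaehlerDifferential (Z.d_eq c)
  simpa [Algebra.smul_def] using h

omit [Algebra k E] [Algebra E F] [IsScalarTower k E F] in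
theorem jc_update (Y : Fr k F (Fin n)) (i₀ : Fin n) (x : F) :
    Y.jc (Function.update Y.y i₀ x) = Y.D i₀ x := by
  have h : (Matrix.of fun i j => Y.D i (Function.update Y.y i₀ x j)) =
      (1 : Matrix (Fin n) (Fin n) F).updateCol i₀ fun i => Y.D i x := by
    ext i j
    rw [Matrix.of_apply, Matrix.updateCol_apply]
    split_ifs with hj
    · rw [hj, Function.update_self]
    · rw [Function.update_of_ne hj, Y.dual, Matrix.one_apply]
  rw [Fr.jc, h, ← Matrix.cramer_apply, Matrix.cramer_one]
  rfl

theorem resInd_up (hO : O.comap (algebraMap E F) = V) {ι : Type} {x : ι → E}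
    (hx : ResInd k V x) : ResInd k O fun i => algebraMap E F (x i) := by
  refine ⟨fun i => (show x i ∈ O.comap (algebraMap E F) from hO ▸ hx.1 i), fun P hP => ?_⟩
  have h := (v_comap_eq hO).2 (hx.2 P hP)
  rwa [← IsScalarTower.toAlgHom_apply k, ← AlgHom.comp_apply, MvPolynomial.comp_aeval] at h

variable [CharZero k] [Algebra.EssFiniteType k E] [FiniteDimensional E F]

omit [Algebra k F] [IsScalarTower k E F] in
theorem exists_mon' (hn : Algebra.trdeg k E = n) (hV : IsDiv k n V) : ∃ u : F, Mon V u := by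
  have := dvr_of_isDiv hn hV
  have := charZero_res hV.alg
  have : CharZero E := charZero_of_injective_algebraMap (algebraMap k E).injective
  exact exists_mon V

/-- **Hurwitz formula** along a divisorial valuation ring -/
theorem hurwitz (hV : IsDiv k n V) (hO : O.comap (algebraMap E F) = V) (hu : Mon V u)
    {bE : Basis (Fin n) E Ω[E⁄k]} {bF : Basis (Fin n) F Ω[F⁄k]}
    (hb : ∀ y : Fin n → E, jac k bF (fun l => algebraMap E F (y l)) = algebraMap E F (jac k bE y)) :
    ∃ (y : Fin n → E) (z : Fin n → F), (∀ l, y l ∈ V) ∧ (∀ l, z l ∈ O) ∧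
      (∀ y' : Fin n → E, (∀ l, y' l ∈ V) → V.valuation (jac k bE y') ≤ V.valuation (jac k bE y)) ∧
      (∀ z' : Fin n → F, (∀ l, z' l ∈ O) → O.valuation (jac k bF z') ≤ O.valuation (jac k bF z)) ∧
      O.valuation (jac k bF z) * O.valuation (aeval u (derivative (minpoly V u))) =
        O.valuation (algebraMap E F (jac k bE y)) := by
  have : Algebra.EssFiniteType k F := Algebra.EssFiniteType.comp k E F
  have := charZero_res hV.alg
  have hn := trdeg_of_basis bF
  obtain ⟨Z, i₀, hZ⟩ := exists_ad (trdeg_of_basis bE) hV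
  have hk : KV k O := fun c => by
    rw [IsScalarTower.algebraMap_apply k E F]
    exact (show _ ∈ O.comap (algebraMap E F) from hO ▸ hV.alg c)
  have hx0 : algebraMap E F (Z.y i₀) ≠ 0 := (_root_.map_ne_zero _).2 hZ.unif.ne
  have hx1 := (v_comap_lt hO).2 hZ.unif.lt
  have hI := resInd_up hO hZ.ind
  have hD : IsDiv k n O := isDiv_of_resInd (Fintype.card_fin n) hk
    (fun h => by subst h; exact hx1.ne (un_iff_val.1 (un_top hx0))) hI
  have := dvr_of_isDiv hn hD
  obtain ⟨t, ht⟩ := exists_isUnif O
  obtain ⟨g, h1, h2, h3⟩ := hu.exists_unif hO hZ.unif.lt hZ.unif.max ht.lt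
  have hg : IsUnif O (aeval u g) := ⟨h1, fun h0 => by
    rw [h0, map_zero, le_zero_iff, Valuation.zero_iff] at h2
    exact ht.ne h2, fun y hy => (ht.max y hy).trans h2⟩
  obtain ⟨Y, hY, hA⟩ := ad_of (y := Function.update (fun l => algebraMap E F (Z.y l)) i₀ (aeval u g))
    (i₀ := i₀) hn (Fintype.card_fin n) hk (by rwa [Function.update_self])
    (by convert hI using 2 with i; exact Function.update_of_ne i.2 _ _)
  have h4 : Y.y i₀ = aeval u g := by rw [hY, Function.update_self]
  have h5 : Y.D i₀ (aeval u g) = 1 := by rw [← h4, Y.dual, if_pos rfl]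
  have h6 : ∀ i, i ≠ i₀ → Y.D i₀ (algebraMap E F (Z.y i)) = 0 := fun i hi => by
    have h7 : Y.y i = algebraMap E F (Z.y i) := by rw [hY, Function.update_of_ne hi]
    rw [← h7, Y.dual, if_neg hi.symm]
  have h7 : (fun l => algebraMap E F (Z.y l)) =
      Function.update Y.y i₀ (algebraMap E F (Z.y i₀)) := by
    rw [hY, Function.update_idem]
    exact (Function.update_eq_self i₀ _).symm
  refine ⟨Z.y, Y.y, hZ.mem, hA.mem, fun _ => hZ.jac_le bE, fun _ => hA.jac_le bF, ?_⟩
  rw [← hb, h7, jac_eq_mul bF Y (Function.update _ _ _), jc_update, map_mul]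
  congr 1
  refine le_antisymm (hu.deriv_le hO (Y.D i₀) (fun a => ?_) h5) ?_
  · rw [der_expand Z, Finset.sum_eq_single i₀ (fun i _ hi => by rw [h6 i hi, mul_zero]) (by simp),
      map_mul]
    exact mul_le_of_le_one_left' (v_coe_le hO ⟨_, hZ.der_mem i₀ _ a.2⟩)
  · obtain ⟨e, he⟩ := exists_pow hg hA.arch hx0 ((O.valuation_le_one_iff _).1 hx1.le)
    obtain ⟨e, rfl⟩ : ∃ e', e = e' + 1 := Nat.exists_eq_succ_of_ne_zero fun h0 => by
      rw [h0, pow_zero] at he
      exact hx1.ne he
    have h8 := der_mul_eq hg hA.arch (Y.D i₀) (hA.der_mem i₀) hk h5 hx0 hx1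
    rw [he, pow_succ] at h8
    rw [mul_right_cancel₀ (vpos hg.ne).ne' h8]
    exact hu.le_deriv hO (x := ⟨Z.y i₀, hZ.mem i₀⟩) h1 hg.ne h3
      (v_natCast hk (Nat.succ_ne_zero e)) he

end Crest.Agent.X262.Mono15
end
end

-- ▼ part X262/Mono15/Flag

/-!
# Row 262, SURF, MONO (helper15), part 5: values of the b-divisors of minors

* `int_of_sec` : sections of a pull-back are integral over the valuation rings of the base;
* `val_det`, `val_sub'` : the values of the b-divisors of minors and of differences;
* `Mon.deriv_eq'` : the derivative of the minimal polynomial, for a finite set of embeddings.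
-/

set_option autoImplicit false

open Polynomial

namespace Crest.Agent.X262.Mono15

open Crest.Agent.X277 Crest.Agent.X277.BD

theorem Mon.deriv_eq' {E F Ω : Type*} [Field E] [Field F] [Field Ω] [Algebra E F]
    [FiniteDimensional E F] {V : ValuationSubring E} {u : F} {q : E →+* Ω} (hu : Mon V u)
    {κ : Type*} [DecidableEq κ] {T : Finset κ} {p : κ → F →+* Ω}
    (hp : ∀ i e, p i (algebraMap E F e) = q e) (hi : Set.InjOn p T)
    (hc : Module.finrank E F ≤ T.card) {i : κ} (hT : i ∈ T) :
    p i (aeval u (derivative (minpoly V u))) = ∏ j ∈ T.erase i, (p i u - p j u) := by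
  have hm := (minpoly.monic hu.int).map (q.comp V.subtype)
  have h2 : (minpoly V u).map (q.comp V.subtype) = Lagrange.nodal T fun j => p j u := by
    refine eq_of_monic_of_dvd_of_natDegree_le Lagrange.nodal_monic hm ?_ ?_
    · refine Finset.prod_dvd_of_coprime (fun j hj l hl h => isCoprime_X_sub_C_of_isUnit_sub
        (sub_ne_zero.2 fun h1 => h (hi hj hl (hu.eq_of_eq (hp j) (hp l) h1))).isUnit) fun j _ => ?_
      rw [dvd_iff_isRoot, IsRoot, ← map_aeval' (hp j), minpoly.aeval, map_zero]
    · rw [Lagrange.natDegree_nodal]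
      exact natDegree_map_le.trans (hu.natDegree_le.trans hc)
  rw [map_aeval' (hp i), ← derivative_map, h2]
  exact (Lagrange.eval_nodal_derivative_eval_node_eq (v := fun j => p j u) hT).trans
    Lagrange.eval_nodal

theorem isIntegral_of_val {E F : Type*} [Field E] [Field F] [Algebra E F]
    {V : ValuationSubring E} {x : F}
    (h : ∀ O : ValuationSubring F, (∀ c ∈ V, algebraMap E F c ∈ O) → x ∈ O) : IsIntegral V x := by
  let A : Subalgebra V F := ⊥
  have h1 := iInf_valuationSubring_superset (K := F) (s := (A : Set F))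
  have h2 : x ∈ (integralClosure (Subring.closure (A : Set F)) F).toSubring := by
    rw [← h1]
    simp only [Subring.mem_iInf]
    exact fun O => h O.1 fun c hc => O.2 (A.algebraMap_mem ⟨c, hc⟩)
  have h3 : Subring.closure (A : Set F) = A.toSubring := Subring.closure_eq A.toSubring
  rw [h3] at h2
  have h4 : IsIntegral A x := h2
  have h5 : Algebra.IsIntegral V A := ⟨fun a => by
    obtain ⟨c, hc⟩ := Algebra.mem_bot.1 a.2
    rw [show a = algebraMap V A c from Subtype.ext hc.symm]
    exact isIntegral_algebraMap⟩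
  exact isIntegral_trans x h4

variable {k E F Ω : Type*} [Field k] [Field E] [Field F] [Field Ω] [Algebra k E] [Algebra k F]
  [Algebra k Ω] [Algebra E F] [IsScalarTower k E F]

theorem int_of_sec {a : BD k E} {V : RZ k E} {g : E} (hg : V.v g = a.val V) {s : F}
    (hs : s ∈ (pb (IsScalarTower.toAlgHom k E F) a).Sec) :
    IsIntegral V.1 (s / algebraMap E F g) := by
  refine isIntegral_of_val fun O hO => ?_
  let W : RZ k F := ⟨O, fun c => by
    rw [IsScalarTower.algebraMap_apply k E F]
    exact hO _ (V.2 c)⟩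
  refine (RZ.le_iff (V := W) ((_root_.map_ne_zero _).2 (ne_of_val hg))).1 ((hs W).trans_eq ?_)
  exact val_mp (val_of_le (W := cm _ (alg_ov (IsScalarTower.toAlgHom k E F)) W) hO hg)

variable {V : ValuationSubring E} {u : F} {q : E →+* Ω} (hu : Mon V u) {W : RZ k Ω}
  (hw : ∀ c : V, W.v (q c) ≤ 1) {g : E} (hg : g ≠ 0) {ι : Type*} [Fintype ι] {s : ι → F}
  (h1 : ∀ b, IsIntegral V (s b / algebraMap E F g))
  (h2 : ∀ a : F, IsIntegral V a → a * algebraMap E F g ∈ Submodule.span V (Set.range s))

omit [Algebra k E] [Algebra k F] [IsScalarTower k E F]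

include hu hw hg h1 h2

omit [Fintype ι] hu hw h1 in
theorem nonempty_of_span : Nonempty ι := by
  by_contra h
  have h3 := h2 1 isIntegral_one
  rw [not_nonempty_iff] at h
  rw [Set.range_eq_empty, Submodule.span_empty, Submodule.mem_bot, one_mul] at h3
  exact (_root_.map_ne_zero _).2 hg h3

/-- the b-divisor of the minors is the Vandermonde determinant -/
theorem val_det {r : ℕ} {p : Fin r → F →+* Ω} (hp : ∀ a e, p a (algebraMap E F e) = q e)
    (hi : Function.Injective p) :
    (mxf k fun c : Fin r → ι => (Matrix.of fun a b => p a (s (c b))).det).val W =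
      W.v (q g) ^ r * W.v (Matrix.vandermonde fun a => p a u).det := by
  have := nonempty_of_span hg h2
  obtain ⟨c, hc⟩ := hu.exists_det hw hp h2
  have h3 := fun c : Fin r → ι => hu.det_le hw hp hg fun b => h1 (c b)
  have h4 : 0 < W.v (q g) ^ r * W.v (Matrix.vandermonde fun a => p a u).det :=
    mul_pos (pow_pos (RZ.pos ((_root_.map_ne_zero _).2 hg)) _)
      (RZ.pos (Matrix.det_vandermonde_ne_zero_iff.2 fun a b h =>
        hi (hu.eq_of_eq (hp a) (hp b) h)))
  rw [val_mxf (i := c) (RZ.ne_zero_iff.1 (h4.trans_le hc).ne') fun c' => (h3 c').trans hc]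
  exact le_antisymm (h3 c) hc

/-- the b-divisor of the differences -/
theorem val_sub' {p₁ p₂ : F →+* Ω} (h₁ : ∀ e, p₁ (algebraMap E F e) = q e)
    (h₂ : ∀ e, p₂ (algebraMap E F e) = q e) (hne : p₁ ≠ p₂) :
    (mxf k fun b => p₁ (s b) - p₂ (s b)).val W = W.v (q g) * W.v (p₁ u - p₂ u) := by
  have := nonempty_of_span hg h2
  obtain ⟨c, hc⟩ := hu.exists_sub hw h₁ h₂ h2
  have h3 := fun b => hu.sub_le hw h₁ h₂ hg (h1 b)
  have h4 : 0 < W.v (q g) * W.v (p₁ u - p₂ u) :=
    mul_pos (RZ.pos ((_root_.map_ne_zero _).2 hg))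
      (RZ.pos (sub_ne_zero.2 fun h => hne (hu.eq_of_eq h₁ h₂ h)))
  rw [val_mxf (i := c) (RZ.ne_zero_iff.1 (h4.trans_le hc).ne') fun c' => (h3 c').trans hc]
  exact le_antisymm (h3 c) hc

end Crest.Agent.X262.Mono15
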